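import Mathlib.Analysis.CStarAlgebra.Classes
import Mathlib.Topology.Algebra.StarSubalgebra

/-! The Cuntz algebra `O_∞` (P133). -/

namespace Vale.Agent.P133O

universe u

/-- `O` is a copy of the Cuntz algebra `O_∞`: a nonzero unital C*-algebra which is generated, as a
unital C*-algebra, by a sequence of isometries `s 0, s 1, …` with mutually orthogonal ranges. -/
structure IsOInfty (O : Type u) [CStarAlgebra O] : Prop where
  nontrivial : Nontrivial O
  gen : ∃ s : ℕ → O, (∀ i j, star (s i) * s j = if i = j then 1 else 0) ∧
    (StarAlgebra.adjoin ℂ (Set.range s)).topologicalClosure = ⊤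

end Vale.Agent.P133O
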