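import Vale.Agent.P133O.Rows
import Vale.Agent.P133OU.Main
import Vale.Agent.P133OU.Exist
import Vale.Agent.P133OV.Fin

/-! The rows existence, uniqueness and converse. -/

namespace Vale.Agent.P133O

universe u

theorem rowEX : RowEX.{u} := by
  obtain ⟨O, iO, hO, s, hs, hg⟩ := P133OU.exists_O.{u}
  exact ⟨O, iO, hO, s, hs, (P133OU.dense_iff _).1 hg⟩

theorem rowUNI : RowUNI.{u} := by
  intro O O' _ _ h h'
  obtain ⟨s, hs, hg⟩ := h.gen
  obtain ⟨t, ht, hg'⟩ := h'.gen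
  have := h.nontrivial
  have := h'.nontrivial
  obtain ⟨e, -⟩ := P133OU.uniq hs ((P133OU.dense_iff _).2 hg) ht ((P133OU.dense_iff _).2 hg')
  exact ⟨e⟩

theorem rowCONV : RowCONV.{u} := by
  intro A _ _ _ O B _ _ T hO hT h
  obtain ⟨s, hs, hg⟩ := hO.gen
  exact P133OV.conv s hs ((P133OU.dense_iff _).2 hg) hT h

end Vale.Agent.P133O
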