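import Vale.Agent.P133O.Easy
import Vale.Agent.P133OF.Cen2
import Vale.Agent.P133OG.Full
import Vale.Agent.P133OG.Pre
import Vale.Agent.P133OE.Lift
import Vale.Agent.P133O37.RedF
import Vale.Agent.P133OZ.Nuc
import Vale.Agent.P133OI.Int

/-! The rows central isometries and intertwining. -/

namespace Vale.Agent.P133O

universe u

theorem rowCEN : RowCEN.{u} := by
  intro A _ _ _ hA h
  refine P133OG.cen3_pi h (P133OF.cen2_of P133O37.red_holds P133OE.lift ?_
    (P133OZ.isNuclearAlg_of hA))
  intro H _ _ _ π hf b hb K δ hδ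
  exact P133OG.full π hf _ hb K hδ

theorem rowINT : RowINT.{u} :=
  fun A _ _ _ _ O B _ _ T hO hT h => P133OI.int A O B T hO hT h

end Vale.Agent.P133O
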